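import Vale.Agent.P292.Defs

namespace Vale.Agent.P292

universe u

/-- The adjoint group of `g`: the group of linear automorphisms of `g` generated by the
exponentials `exp (ad x)` of the elements `x` with `ad x` nilpotent. -/
def adjointGroup (g : Type u) [LieRing g] [LieAlgebra ℂ g] : Subgroup (g ≃ₗ[ℂ] g) :=
  Subgroup.closure {σ | ∃ (x : g) (n : ℕ), (LieAlgebra.ad ℂ g x) ^ (n + 1) = 0 ∧
    (σ : g →ₗ[ℂ] g) =
      ∑ l ∈ Finset.range (n + 1), ((l.factorial : ℂ)⁻¹) • (LieAlgebra.ad ℂ g x) ^ l}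

/-- Zariski closed subsets of a complex vector space: common zero sets of families of
polynomials in the linear forms. -/
def IsZariskiClosed {g : Type u} [AddCommGroup g] [Module ℂ g] (Z : Set g) : Prop :=
  ∃ S : Set (MvPolynomial (Module.Dual ℂ g) ℂ),
    Z = {y | ∀ F ∈ S, MvPolynomial.aeval (fun l : Module.Dual ℂ g => l y) F = 0}

/-- `O` is the minimal nonzero nilpotent orbit of `g`: it is the orbit of a nonzero nilpotent
element under the adjoint group, and `O ∪ {0}` is Zariski closed (so the projectivization of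
`O` is the closed adjoint orbit in `ℙ(g)`). -/
def IsMinimalOrbit {g : Type u} [LieRing g] [LieAlgebra ℂ g] (O : Set g) : Prop :=
  (∃ y : g, y ≠ 0 ∧ IsNilpotent (LieAlgebra.ad ℂ g y) ∧
    O = {z | ∃ σ ∈ adjointGroup g, z = σ y}) ∧ IsZariskiClosed (O ∪ {0})

/-- `(R, 𝒜, P)` is the section ring of an adjoint variety with its canonical contact
structure: there is a simple Lie algebra `g` identified by `φ` with `(𝒜 1, P)`, the algebra
`R` is generated by `𝒜 1`, and the nonzero points of the cone `Spec R ⊆ g* = g` (the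
identification being given by the Killing form) are the points of the minimal nilpotent
orbit. -/
def IsAdjointVariety {R : Type u} [CommRing R] [Algebra ℂ R] (𝒜 : ℕ → Submodule ℂ R)
    (P : R →ₗ[ℂ] R →ₗ[ℂ] R) : Prop :=
  ∃ (g : Type u) (_ : LieRing g) (_ : LieAlgebra ℂ g) (_ : FiniteDimensional ℂ g)
    (_ : LieAlgebra.IsSimple ℂ g) (φ : g →ₗ[ℂ] R) (O : Set g),
    Function.Injective φ ∧ LinearMap.range φ = 𝒜 1 ∧
    (∀ x y : g, φ ⁅x, y⁆ = P (φ x) (φ y)) ∧
    Algebra.adjoin ℂ (𝒜 1 : Set R) = ⊤ ∧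
    IsMinimalOrbit O ∧
    {y : g | ∃ p : R →ₐ[ℂ] ℂ, ¬ IsVertex 𝒜 p ∧ ∀ x, p (φ x) = killingForm ℂ g x y} = O

end Vale.Agent.P292
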