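import Vale.Agent.P292.MathlibUsed

namespace Vale.Agent.P292

universe u

/-- A complex point `p` of `Spec R` is the vertex of the cone if every element of positive
degree vanishes at `p`. -/
def IsVertex {R : Type u} [CommRing R] [Algebra ℂ R] (𝒜 : ℕ → Submodule ℂ R)
    (p : R →ₐ[ℂ] ℂ) : Prop :=
  ∀ k : ℕ, 0 < k → ∀ r ∈ 𝒜 k, p r = 0

/-- `(R, 𝒜, P)` is the section ring of a contact Fano manifold `(X, F)`, with
`X = Proj R`, contact line bundle `L = O(1)`, `𝒜 k = H⁰(X, L ^ k)` and `P` the bracket of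
sections given by the contact structure (the homogeneous Poisson bracket on the symplectic
cone of the contact structure). -/
structure IsContactFano {R : Type u} [CommRing R] [Algebra ℂ R] (𝒜 : ℕ → Submodule ℂ R)
    [GradedAlgebra 𝒜] (P : R →ₗ[ℂ] R →ₗ[ℂ] R) : Prop where
  domain : IsDomain R
  normal : IsIntegrallyClosed R
  finiteType : Algebra.FiniteType ℂ R
  connected : ∀ r ∈ 𝒜 0, ∃ c : ℂ, r = algebraMap ℂ R c
  nonempty : ∃ p : R →ₐ[ℂ] ℂ, ¬ IsVertex 𝒜 p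
  lineBundle : ∀ p : R →ₐ[ℂ] ℂ, ¬ IsVertex 𝒜 p →
    ∀ d : ℕ, (∀ k, ∀ r ∈ 𝒜 k, p r ≠ 0 → d ∣ k) → d = 1
  alternating : ∀ a, P a a = 0
  leibniz : ∀ a b c, P a (b * c) = P a b * c + b * P a c
  jacobi : ∀ a b c, P a (P b c) = P (P a b) c + P b (P a c)
  degree : ∀ i j k, i + j = k + 1 → ∀ a ∈ 𝒜 i, ∀ b ∈ 𝒜 j, P a b ∈ 𝒜 k
  nondegenerate : ∀ p : R →ₐ[ℂ] ℂ, ¬ IsVertex 𝒜 p →
    ∀ a, (∀ b, p (P a b) = 0) → a - algebraMap ℂ R (p a) ∈ RingHom.ker p ^ 2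

/-- The linear system `|L|` has no base points. -/
def IsBasePointFree {R : Type u} [CommRing R] [Algebra ℂ R] (𝒜 : ℕ → Submodule ℂ R) : Prop :=
  ∀ p : R →ₐ[ℂ] ℂ, ¬ IsVertex 𝒜 p → ∃ s ∈ 𝒜 1, p s ≠ 0

end Vale.Agent.P292
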