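import Mathlib.Algebra.AffineMonoid.UniqueSums
import Mathlib.Algebra.DualNumber
import Mathlib.Algebra.GroupWithZero.Action.Pointwise.Finset
import Mathlib.Algebra.GroupWithZero.Submonoid.CancelMulZero
import Mathlib.Algebra.Lie.Basis.Basic
import Mathlib.Algebra.Lie.CartanCriterion
import Mathlib.Algebra.Lie.CartanExists
import Mathlib.Algebra.Lie.LieTheorem
import Mathlib.Algebra.Lie.Weights.RootSystem
import Mathlib.Algebra.Module.StablyFree.Basic
import Mathlib.Algebra.MvPolynomial.Funext
import Mathlib.Algebra.Order.Ring.Star
import Mathlib.Algebra.Polynomial.Smeval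
import Mathlib.Algebra.Ring.Action.Pointwise.Finset
import Mathlib.Analysis.CStarAlgebra.Classes
import Mathlib.Analysis.Complex.Polynomial.Basic
import Mathlib.Computability.Reduce
import Mathlib.Data.Finset.Functor
import Mathlib.Data.Finset.MulAntidiagonal
import Mathlib.Data.Int.Star
import Mathlib.Data.Rat.Star
import Mathlib.FieldTheory.PurelyInseparable.Exponent
import Mathlib.FieldTheory.RatFunc.Valuation
import Mathlib.LinearAlgebra.Matrix.FiniteDimensional
import Mathlib.LinearAlgebra.RootSystem.Finite.Lemmas
import Mathlib.NumberTheory.FrobeniusNumber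
import Mathlib.Order.CompletePartialOrder
import Mathlib.RingTheory.Derivation.Lie
import Mathlib.RingTheory.Derivation.MapCoeffs
import Mathlib.RingTheory.Etale.Weakly
import Mathlib.RingTheory.Finiteness.ModuleFinitePresentation
import Mathlib.RingTheory.GradedAlgebra.Radical
import Mathlib.RingTheory.Henselian
import Mathlib.RingTheory.IntegralClosure.IntegralRestrict
import Mathlib.RingTheory.LocalProperties.Reduced
import Mathlib.RingTheory.MvPolynomial.EulerIdentity
import Mathlib.RingTheory.MvPolynomial.IrreducibleQuadratic
import Mathlib.RingTheory.Nullstellensatz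
import Mathlib.RingTheory.PicardGroup
import Mathlib.RingTheory.Polynomial.IsIntegral
import Mathlib.RingTheory.RegularLocalRing.Defs
import Mathlib.RingTheory.SimpleRing.Principal
import Mathlib.RingTheory.Smooth.Field
import Mathlib.RingTheory.TotallySplit
import Mathlib.RingTheory.Valuation.LocalSubring
import Mathlib.Tactic

/-! The part of Mathlib that the development of this folder uses. -/
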